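import Vale.Agent.P181.SZR5.Minor

set_option autoImplicit false

/-!
# P181, SZ, R5: marks
-/

open MvPolynomial

namespace Vale.Agent.P181.SZR5

open Vale.Agent.P181.T4 (HW ex low mem_HW mem_HW_iff_isWeightedHomogeneous rowW rowOp rowOp_apply)
open Vale.Agent.P181.SZ

variable {m r x t : ℕ} {σ : Type}

/-- The columns: the old ones, the big mark and the `t` blocks of `r` marks. -/
abbrev CT (σ : Type) (t r : ℕ) : Type := σ ⊕ Option (Fin t × Fin r)

/-- The column degrees. -/
def dg (x t r : ℕ) (d : σ → ℕ) : CT σ t r → ℕ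
  | Sum.inl s => d s
  | Sum.inr none => mkc x t
  | Sum.inr (some p) => 2 * x + 2 * (p.1 : ℕ) + 2

/-- The columns of the `q`-th minor. -/
def cl (σ : Type) (r : ℕ) (q : Fin t) : Fin (r + 1) → CT σ t r :=
  Fin.cons (Sum.inr none) (fun j => Sum.inr (some (q, j)))

lemma cl_zero (q : Fin t) : cl σ r q 0 = Sum.inr none := rfl

lemma cl_succ (q : Fin t) (j : Fin r) : cl σ r q j.succ = Sum.inr (some (q, j)) := rfl

lemma cl_inj (q : Fin t) : Function.Injective (cl σ r q) := by
  intro a b h
  induction a using Fin.cases with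
  | zero =>
    induction b using Fin.cases with
    | zero => rfl
    | succ b => rw [cl_zero, cl_succ] at h; simp at h
  | succ a =>
    induction b using Fin.cases with
    | zero => rw [cl_zero, cl_succ] at h; simp at h
    | succ b =>
      rw [cl_succ, cl_succ] at h
      simp only [Sum.inr.injEq, Option.some.injEq, Prod.mk.injEq, true_and] at h
      rw [h]

lemma mkc_gt (ht : 2 ≤ t) (q : Fin t) : 2 * x + 2 * (q : ℕ) + 2 < mkc x t := by
  rw [mkc]
  obtain ⟨p, hp, hpq⟩ : ∃ p ∈ Finset.range t, p ≠ (q : ℕ) := by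
    by_cases h : (q : ℕ) = 0
    · exact ⟨1, Finset.mem_range.2 (by omega), by omega⟩
    · exact ⟨0, Finset.mem_range.2 (by omega), fun h' => h h'.symm⟩
  have h1 := Finset.sum_erase_add (Finset.range t) (fun q => 2 * x + 2 * q + 2)
    (Finset.mem_range.2 q.2)
  have h2 : 2 * x + 2 * p + 2 ≤
      ∑ i ∈ (Finset.range t).erase (q : ℕ), (2 * x + 2 * i + 2) :=
    Finset.single_le_sum (f := fun i => 2 * x + 2 * i + 2) (fun _ _ => Nat.zero_le _)
      (Finset.mem_erase.2 ⟨hpq, hp⟩)
  omega

/-- The product of the powers of the minors. -/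
noncomputable def PP (σ : Type) (x t : ℕ) (hr : r < m) :
    MvPolynomial (Fin m × CT σ t r) ℂ :=
  ∏ q : Fin t, minor hr (cl σ r q) ^ (2 * (x + (q : ℕ) + 1))

lemma PP_ne_zero (hr : r < m) : PP σ x t hr ≠ 0 :=
  Finset.prod_ne_zero_iff.2 fun q _ => pow_ne_zero _ (minor_ne_zero hr (cl_inj q))

lemma PP_HW [Fintype σ] (hr : r < m) :
    PP σ x t hr ∈ HW m (CT σ t r) (fun i => if (i : ℕ) ≤ r then mkc x t else 0) := by
  have h := HW_prod Finset.univ
    (fun q : Fin t => (2 * (x + (q : ℕ) + 1)) • (fun i : Fin m => if (i : ℕ) ≤ r then 1 else 0))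
    (fun q => minor hr (cl σ r q) ^ (2 * (x + (q : ℕ) + 1)))
    (fun q _ => HW_pow (minor_HW hr (cl σ r q)) _)
  have hw : (fun i : Fin m => if (i : ℕ) ≤ r then mkc x t else 0) =
      ∑ q : Fin t, (2 * (x + (q : ℕ) + 1)) • (fun i : Fin m => if (i : ℕ) ≤ r then 1 else 0) := by
   funext i
   rw [Finset.sum_apply, mkc, Finset.sum_range]
   split_ifs with hi
   · refine Finset.sum_congr rfl fun q _ => ?_
     simp only [Pi.smul_apply, if_pos hi, smul_eq_mul]
     ring
   · symm
     refine Finset.sum_eq_zero fun q _ => ?_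
     simp only [Pi.smul_apply, if_neg hi, smul_eq_mul, mul_zero]
  rw [hw]
  exact h

lemma PP_col [DecidableEq σ] (hr : r < m) :
    Col m (CT σ t r) (PP σ x t hr) (dg x t r (fun _ => 0)) := by
  have h := Col.prod (n := m) (σ := CT σ t r) Finset.univ
    (fun (q : Fin t) _ => (minor_col hr (cl σ r q)).pow (2 * (x + (q : ℕ) + 1)))
  have h2 : (∑ q : Fin t, (2 * (x + (q : ℕ) + 1)) •
      (∑ b, Pi.single (cl σ r q b) 1 : CT σ t r → ℕ)) = dg x t r (fun _ => 0) := by
    funext j
    simp only [Finset.sum_apply, Pi.smul_apply, smul_eq_mul, Fin.sum_univ_succ, Pi.add_apply,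
      cl_zero, cl_succ]
    rcases j with s | j | ⟨q, j⟩
    · simp [dg]
    · simp [dg, mkc, Finset.sum_range]
      refine Finset.sum_congr rfl fun q _ => ?_
      ring
    · simp only [dg, Pi.single_apply, Sum.inr.injEq, Option.some.injEq, Prod.mk.injEq,
        reduceCtorEq, if_false, zero_add]
      rw [Finset.sum_eq_single q, Finset.sum_eq_single j]
      · simp
        ring
      · intro b _ hb
        rw [if_neg]
        rintro ⟨_, h⟩
        exact hb h.symm
      · intro h
        exact absurd (Finset.mem_univ _) h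
      · intro b _ hb
        rw [Finset.sum_eq_zero, mul_zero]
        intro c _
        rw [if_neg]
        rintro ⟨h, _⟩
        exact hb h.symm
      · intro h
        exact absurd (Finset.mem_univ _) h
  rw [← h2]
  exact h

/-- A permutation of the columns which preserves the degrees preserves the blocks. -/
lemma perm_split (ht : 2 ≤ t) {d : σ → ℕ} (hd : ∀ s, d s ≤ 2 * x + 1)
    (e : Equiv.Perm (CT σ t r)) (he : ∀ j, dg x t r d (e j) = dg x t r d j) :
    (∀ s, ∃ s', e (Sum.inl s) = Sum.inl s') ∧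
      ∀ (q : Fin t) (b : Fin (r + 1)), ∃ b', e (cl σ r q b) = cl σ r q b' := by
  have hm := fun q => mkc_gt (x := x) ht q
  constructor
  · intro s
    have h := he (Sum.inl s)
    rcases h1 : e (Sum.inl s) with s' | j | ⟨q, j⟩
    · exact ⟨s', rfl⟩
    · rw [h1] at h
      have h2 := hm ⟨0, by omega⟩
      have h3 := hd s
      simp only [dg] at h h2
      omega
    · rw [h1] at h
      have h3 := hd s
      simp only [dg] at h
      omega
  · intro q b
    have h := he (cl σ r q b)
    induction b using Fin.cases with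
    | zero =>
      rw [cl_zero] at h ⊢
      rcases h1 : e (Sum.inr none) with s' | j | ⟨q', j⟩
      · rw [h1] at h
        have h2 := hm ⟨0, by omega⟩
        have h3 := hd s'
        simp only [dg] at h h2
        omega
      · exact ⟨0, rfl⟩
      · rw [h1] at h
        have h2 := hm q'
        simp only [dg] at h
        omega
    | succ b =>
      rw [cl_succ] at h ⊢
      rcases h1 : e (Sum.inr (some (q, b))) with s' | j | ⟨q', j⟩
      · rw [h1] at h
        have h3 := hd s'
        simp only [dg] at h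
        omega
      · rw [h1] at h
        have h2 := hm q
        simp only [dg] at h
        omega
      · rw [h1] at h
        simp only [dg] at h
        have h4 : q' = q := Fin.ext (by omega)
        subst h4
        exact ⟨j.succ, rfl⟩

lemma PP_perm (hr : r < m) (ht : 2 ≤ t) {d : σ → ℕ} (hd : ∀ s, d s ≤ 2 * x + 1)
    (e : Equiv.Perm (CT σ t r)) (he : ∀ j, dg x t r d (e j) = dg x t r d j) :
    ren m e (PP σ x t hr) = PP σ x t hr := by
  rw [PP, map_prod]
  refine Finset.prod_congr rfl fun q _ => ?_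
  rw [map_pow, minor_ren]
  choose π hπ using (perm_split ht hd e he).2 q
  have hinj : Function.Injective π := by
    intro a b hab
    apply cl_inj (σ := σ) q
    apply e.injective
    rw [hπ, hπ, hab]
  have h1 : (fun b => e (cl σ r q b)) = fun b => cl σ r q
      ((Equiv.ofBijective π (Finite.injective_iff_bijective.1 hinj)) b) := by
    funext b
    rw [hπ]
    rfl
  rw [h1, minor_perm_pow]

/-- The multiplication by the marks. -/
noncomputable def mulP (σ : Type) (x t : ℕ) (hr : r < m) :
    MvPolynomial (Fin m × σ) ℂ →ₗ[ℂ] MvPolynomial (Fin m × CT σ t r) ℂ :=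
  (LinearMap.mulRight ℂ (PP σ x t hr)) ∘ₗ (ren m Sum.inl).toLinearMap

lemma mulP_apply (hr : r < m) (f : MvPolynomial (Fin m × σ) ℂ) :
    mulP σ x t hr f = ren m Sum.inl f * PP σ x t hr := rfl

lemma mulP_inj (hr : r < m) : Function.Injective (mulP σ x t hr) := by
  intro f g h
  rw [mulP_apply, mulP_apply] at h
  exact ren_inj Sum.inl_injective (mul_right_cancel₀ (PP_ne_zero hr) h)

lemma ren_col_inl {f : MvPolynomial (Fin m × σ) ℂ} {d : σ → ℕ} (hf : Col m σ f d) :
    Col m (CT σ t r) (ren m Sum.inl f) (Sum.elim d (fun _ => 0)) := by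
  intro v hv j
  obtain ⟨u, hu, hu'⟩ := coeff_rename_ne_zero _ _ _ hv
  rw [← hu]
  have hφ : Function.Injective
      (fun p : Fin m × σ => ((p.1, Sum.inl p.2) : Fin m × CT σ t r)) := by
    rintro ⟨a, b⟩ ⟨a', b'⟩ h
    have e1 : a = a' := congrArg Prod.fst h
    have e2 : b = b' := Sum.inl_injective (congrArg Prod.snd h)
    rw [e1, e2]
  rcases j with s | j
  · rw [Sum.elim_inl, ← hf u hu' s]
    refine Finset.sum_congr rfl fun i _ => ?_
    exact Finsupp.mapDomain_apply hφ u (i, s)
  · rw [Sum.elim_inr]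
    refine Finset.sum_eq_zero fun i _ => ?_
    apply Finsupp.mapDomain_of_notMem_range
    rintro ⟨p, hp⟩
    have := congrArg Prod.snd hp
    simp at this

lemma mulP_mem [Fintype σ] (hr : r < m) (ht : 2 ≤ t) {d : σ → ℕ} (hd : ∀ s, d s ≤ 2 * x + 1)
    {mu nu : Fin m → ℕ} (hnu : ∀ i : Fin m, nu i = mu i + if (i : ℕ) ≤ r then mkc x t else 0)
    {f : MvPolynomial (Fin m × σ) ℂ} (hf : f ∈ PK m σ d mu) :
    mulP σ x t hr f ∈ PK m (CT σ t r) (dg x t r d) nu := by
  classical
  obtain ⟨h1, h2, h3⟩ := hf
  rw [mulP_apply]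
  refine ⟨?_, ?_, ?_⟩
  · have h4 := HW_mul (ren_row (φ := (Sum.inl : σ → CT σ t r)) h1) (PP_HW (x := x) (t := t) hr)
    have hw : nu = mu + fun i : Fin m => if (i : ℕ) ≤ r then mkc x t else 0 := by
      funext i
      rw [hnu i]
      rfl
    rw [hw]
    exact h4
  · have h4 := (ren_col_inl (t := t) (r := r) (show Col m σ f d from h2)).mul
      (PP_col (σ := σ) (x := x) (t := t) hr)
    intro v hv j
    rw [h4 v hv j, Pi.add_apply]
    rcases j with s | j | ⟨q, j⟩ <;> simp [dg]
  · intro e he
    change ren m e (ren m Sum.inl f * PP σ x t hr) = _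
    rw [map_mul, PP_perm hr ht hd e he]
    congr 1
    choose π hπ using (perm_split ht hd e he).1
    have hinj : Function.Injective π := by
      intro a b hab
      apply Sum.inl_injective (β := Option (Fin t × Fin r))
      apply e.injective
      rw [hπ, hπ, hab]
    let e0 : Equiv.Perm σ := Equiv.ofBijective π (Finite.injective_iff_bijective.1 hinj)
    have h5 : ∀ s, d (e0 s) = d s := by
      intro s
      have h6 := he (Sum.inl s)
      rw [hπ] at h6
      exact h6
    have h7 := h3 e0 h5
    have h8 : ren m e (ren m Sum.inl f) = ren m Sum.inl (ren m e0 f) := by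
      simp only [ren, rename_rename]
      congr 2
      funext p
      change (p.1, e (Sum.inl p.2)) = (p.1, Sum.inl (π p.2))
      rw [hπ]
    rw [h8]
    congr 1

instance finiteDimensional_PK (m : ℕ) (σ : Type) [Fintype σ] (d : σ → ℕ) (mu : Fin m → ℕ) :
    FiniteDimensional ℂ (PK m σ d mu) :=
  Submodule.finiteDimensional_of_le (S₂ := HW m σ mu) (fun _ hf => hf.1)

theorem finrank_mark [Fintype σ] (hr : r < m) (ht : 2 ≤ t) {d : σ → ℕ}
    (hd : ∀ s, d s ≤ 2 * x + 1) {mu nu : Fin m → ℕ}
    (hnu : ∀ i : Fin m, nu i = mu i + if (i : ℕ) ≤ r then mkc x t else 0) :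
    Module.finrank ℂ (PK m σ d mu) ≤ Module.finrank ℂ (PK m (CT σ t r) (dg x t r d) nu) := by
  let L : PK m σ d mu →ₗ[ℂ] PK m (CT σ t r) (dg x t r d) nu :=
    (mulP σ x t hr).restrict fun f hf => mulP_mem hr ht hd hnu hf
  refine LinearMap.finrank_le_finrank_of_injective (f := L) ?_
  intro f g h
  apply Subtype.ext
  apply mulP_inj (σ := σ) (x := x) (t := t) hr
  exact congrArg Subtype.val h

lemma map_dg [Fintype σ] (d : σ → ℕ) :
    (Finset.univ : Finset (CT σ t r)).val.map (dg x t r d) =
      mkc x t ::ₘ (mks x t r + (Finset.univ : Finset σ).val.map d) := by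
  have h1 : ∀ {ρ : Type} [Fintype ρ] (g : ρ → ℕ), (Finset.univ : Finset ρ).val.map g =
      ∑ j, ({g j} : Multiset ℕ) := by
    intro ρ _ g
    rw [Finset.sum, ← Multiset.sum_map_singleton ((Finset.univ : Finset ρ).val.map g),
      Multiset.map_map]
    rfl
  rw [h1, h1, Fintype.sum_sum_type, Fintype.sum_option, Fintype.sum_prod_type]
  simp only [dg]
  rw [mks, Finset.sum_range, add_comm, ← Multiset.singleton_add, add_assoc]
  congr 1
  congr 1
  refine Finset.sum_congr rfl fun q _ => ?_
  rw [Finset.sum_const, Finset.card_univ, Fintype.card_fin, Multiset.nsmul_singleton]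

lemma nn_filter (h : TransS) (m : ℕ) (mu : Fin m → ℕ) (k : Multiset ℕ) :
    nn m mu k = nn m mu (k.filter (0 < ·)) := by
  have h1 := h m (Fin k.toList.length) (fun j => k.toList.get j) mu
  have h2 : (Finset.univ : Finset (Fin k.toList.length)).val.map (fun j => k.toList.get j) = k := by
    conv_rhs => rw [← Multiset.coe_toList k]
    rw [Fin.univ_val_map]
    congr 1
    exact List.ofFn_get _
  rw [h2] at h1
  exact h1

/-- **(R5)** marks. -/
theorem markS (h : TransS) : MarkS := by
  intro m r x t mu nu k hr ht hk hnu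
  have h1 := finrank_mark (σ := Fin k.toList.length) (d := fun j => k.toList.get j) hr ht
    (fun s => hk _ (Multiset.mem_toList.1 (List.get_mem _ _))) hnu
  rw [h m (CT (Fin k.toList.length) t r), map_dg] at h1
  have h2 : (Finset.univ : Finset (Fin k.toList.length)).val.map (fun j => k.toList.get j) = k := by
    conv_rhs => rw [← Multiset.coe_toList k]
    rw [Fin.univ_val_map]
    congr 1
    exact List.ofFn_get _
  rw [h2, ← nn_filter h] at h1
  exact h1

end Vale.Agent.P181.SZR5
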