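import Vale.Agent.P181.SZR5.Basic

set_option autoImplicit false

/-!
# P181, SZ, R5: the minors of the first rows
-/

open MvPolynomial

namespace Vale.Agent.P181.SZR5

open Vale.Agent.P181.T4 (HW ex low mem_HW mem_HW_iff_isWeightedHomogeneous rowW rowOp rowOp_apply)

variable {m r : ℕ} {σ τ : Type}

/-- The first `r + 1` rows. -/
def rw' (hr : r < m) (a : Fin (r + 1)) : Fin m := ⟨a, lt_of_lt_of_le a.2 hr⟩

lemma rw'_inj (hr : r < m) : Function.Injective (rw' hr) := by
  intro a b h
  have := congrArg Fin.val h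
  exact Fin.ext this

/-- The minor of the rows `0..r` and the columns `c`. -/
noncomputable def minor (hr : r < m) (c : Fin (r + 1) → τ) : MvPolynomial (Fin m × τ) ℂ :=
  Matrix.det (Matrix.of fun a b => X (rw' hr a, c b))

lemma minor_ren (hr : r < m) (φ : σ → τ) (c : Fin (r + 1) → σ) :
    ren m φ (minor hr c) = minor hr (fun b => φ (c b)) := by
  rw [minor, minor, AlgHom.map_det]
  congr 1
  ext a b : 2
  rw [AlgHom.mapMatrix_apply, Matrix.map_apply, Matrix.of_apply, Matrix.of_apply, ren_X]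

lemma minor_perm (hr : r < m) (c : Fin (r + 1) → τ) (π : Equiv.Perm (Fin (r + 1))) :
    minor hr (fun b => c (π b)) = ((Equiv.Perm.sign π : ℤ) : MvPolynomial (Fin m × τ) ℂ) *
      minor hr c := by
  rw [minor, minor, ← Matrix.det_permute']
  rfl

lemma minor_perm_pow (hr : r < m) (c : Fin (r + 1) → τ) (π : Equiv.Perm (Fin (r + 1))) (k : ℕ) :
    minor hr (fun b => c (π b)) ^ (2 * k) = minor hr c ^ (2 * k) := by
  rw [minor_perm, mul_pow]
  have h : ((Equiv.Perm.sign π : ℤ) : MvPolynomial (Fin m × τ) ℂ) ^ (2 * k) = 1 := by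
    rw [pow_mul]
    have h2 : ((Equiv.Perm.sign π : ℤ) : MvPolynomial (Fin m × τ) ℂ) ^ 2 = 1 := by
      rcases Int.units_eq_one_or (Equiv.Perm.sign π) with h | h
      · rw [h]; simp
      · rw [h]; simp
    rw [h2, one_pow]
  rw [h, one_mul]

lemma minor_ne_zero (hr : r < m) {c : Fin (r + 1) → τ} (hc : Function.Injective c) :
    minor hr c ≠ 0 := by
  have h1 : minor hr c = rename (fun p : Fin (r + 1) × Fin (r + 1) => (rw' hr p.1, c p.2))
      (Matrix.det (Matrix.mvPolynomialX (Fin (r + 1)) (Fin (r + 1)) ℂ)) := by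
    rw [minor, AlgHom.map_det]
    congr 1
    ext a b : 2
    rw [AlgHom.mapMatrix_apply, Matrix.map_apply, Matrix.mvPolynomialX_apply, rename_X,
      Matrix.of_apply]
  rw [h1]
  intro h
  apply Matrix.det_mvPolynomialX_ne_zero (Fin (r + 1)) ℂ
  apply rename_injective (fun p : Fin (r + 1) × Fin (r + 1) => (rw' hr p.1, c p.2)) ?_
    (h.trans (map_zero _).symm)
  rintro ⟨a, b⟩ ⟨a', b'⟩ hab
  exact Prod.ext (rw'_inj hr (congrArg Prod.fst hab)) (hc (congrArg Prod.snd hab))

lemma minor_col [DecidableEq τ] (hr : r < m) (c : Fin (r + 1) → τ) :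
    Col m τ (minor hr c) (∑ b, Pi.single (c b) 1) := by
  rw [minor, Matrix.det_apply']
  refine Col.sum _ fun π _ => ?_
  have h1 : Col m τ (∏ b, X (rw' hr (π b), c b)) (∑ b, Pi.single (c b) 1) :=
    Col.prod _ fun b _ => Col.X (n := m) (rw' hr (π b), c b)
  have h2 : Col m τ (((Equiv.Perm.sign π : ℤ)) : MvPolynomial (Fin m × τ) ℂ) 0 := by
    rcases Int.units_eq_one_or (Equiv.Perm.sign π) with h | h
    · rw [h]
      simpa using (Col.one (n := m) (σ := τ))
    · rw [h]
      intro v hv
      apply (Col.one (n := m) (σ := τ)) v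
      intro h0
      apply hv
      simp only [Units.val_neg, Units.val_one, Int.cast_neg, Int.cast_one, coeff_neg, h0, neg_zero]
  have h3 := h2.mul h1
  rw [zero_add] at h3
  exact h3

lemma minor_row [Fintype τ] (hr : r < m) (c : Fin (r + 1) → τ) :
    IsWeightedHomogeneous (rowW m τ) (minor hr c) (∑ a, Pi.single (rw' hr a) 1) := by
  classical
  rw [minor, Matrix.det_apply']
  refine IsWeightedHomogeneous.sum _ _ _ fun π _ => ?_
  have h1 : IsWeightedHomogeneous (rowW m τ) (∏ b, (X (rw' hr (π b), c b) :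
      MvPolynomial (Fin m × τ) ℂ)) (∑ b, Pi.single (rw' hr (π b)) 1) :=
    IsWeightedHomogeneous.prod _ _ _ fun b _ => isWeightedHomogeneous_X _ _ _
  have h2 : IsWeightedHomogeneous (rowW m τ)
      (((Equiv.Perm.sign π : ℤ)) : MvPolynomial (Fin m × τ) ℂ) 0 := by
    have h3 : (((Equiv.Perm.sign π : ℤ)) : MvPolynomial (Fin m × τ) ℂ) =
        C (((Equiv.Perm.sign π : ℤ)) : ℂ) := by
      rw [map_intCast]
    rw [h3]
    exact isWeightedHomogeneous_C _ _
  have h4 := h2.mul h1
  rw [zero_add, Equiv.sum_comp π (fun a => (Pi.single (rw' hr a) 1 : Fin m → ℕ))] at h4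
  exact h4

lemma minor_wt (hr : r < m) :
    (∑ a, Pi.single (rw' hr a) 1 : Fin m → ℕ) = fun i : Fin m => if (i : ℕ) ≤ r then 1 else 0 := by
  classical
  funext i
  rw [Finset.sum_apply]
  by_cases h : (i : ℕ) ≤ r
  · rw [if_pos h, Finset.sum_eq_single ⟨i, Nat.lt_succ_of_le h⟩]
    · have : rw' hr ⟨i, Nat.lt_succ_of_le h⟩ = i := Fin.ext rfl
      rw [this, Pi.single_eq_same]
    · intro b _ hb
      rw [Pi.single_eq_of_ne]
      intro h'
      apply hb
      apply Fin.ext
      exact (congrArg Fin.val h').symm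
    · intro h'
      exact absurd (Finset.mem_univ _) h'
  · rw [if_neg h]
    refine Finset.sum_eq_zero fun b _ => ?_
    rw [Pi.single_eq_of_ne]
    intro h'
    apply h
    rw [h']
    exact Nat.le_of_lt_succ b.2

lemma minor_shear [Fintype τ] (hr : r < m) (c : Fin (r + 1) → τ) {s i : Fin m} (hsi : s < i) :
    rowOp s i (minor hr c) = 0 := by
  have h1 : T4.shearHom τ s i (minor hr c) = Polynomial.C (minor hr c) := by
    rw [minor, RingHom.map_det, RingHom.map_det]
    by_cases hs : (s : ℕ) ≤ r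
    · refine Matrix.det_eq_of_forall_row_eq_smul_add_const
        (fun a => if rw' hr a = i then Polynomial.X else 0) ⟨s, Nat.lt_succ_of_le hs⟩ ?_ ?_
      · rw [if_neg]
        intro h
        rw [← h] at hsi
        exact lt_irrefl _ (show (s : ℕ) < s from hsi)
      · intro a b
        rw [RingHom.mapMatrix_apply, Matrix.map_apply, RingHom.mapMatrix_apply, Matrix.map_apply,
          Matrix.map_apply, Matrix.of_apply, Matrix.of_apply, T4.shearHom_X]
        congr 1
        split_ifs with h
        · rfl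
        · rw [zero_mul]
    · congr 1
      ext a b : 2
      rw [RingHom.mapMatrix_apply, Matrix.map_apply, RingHom.mapMatrix_apply, Matrix.map_apply,
        Matrix.of_apply, T4.shearHom_X, if_neg, add_zero]
      intro h
      apply hs
      have h2 : (i : ℕ) ≤ r := by
        rw [← h]
        exact Nat.le_of_lt_succ a.2
      exact le_trans (le_of_lt hsi) h2
  rw [← (T4.shearHom_coeff s i (minor hr c)).2, h1, Polynomial.coeff_C_succ]

lemma minor_HW [Fintype τ] (hr : r < m) (c : Fin (r + 1) → τ) :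
    minor hr c ∈ HW m τ (fun i => if (i : ℕ) ≤ r then 1 else 0) := by
  rw [mem_HW_iff_isWeightedHomogeneous, ← minor_wt hr]
  exact ⟨minor_row hr c, fun s i h => minor_shear hr c h⟩

end Vale.Agent.P181.SZR5
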