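import Vale.Agent.P181.SZ.Defs

set_option autoImplicit false

/-!
# P181, SZ, R5: products and renamings of highest weight polynomials, minors
-/

open MvPolynomial

namespace Vale.Agent.P181.SZR5

open Vale.Agent.P181.T4 (HW ex low mem_HW mem_HW_iff_isWeightedHomogeneous rowW rowOp rowOp_apply)

variable {n : ℕ} {σ τ : Type}

lemma HW_mul [Fintype σ] {lam mu : Fin n → ℕ} {f g : MvPolynomial (Fin n × σ) ℂ}
    (hf : f ∈ HW n σ lam) (hg : g ∈ HW n σ mu) : f * g ∈ HW n σ (lam + mu) := by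
  rw [mem_HW_iff_isWeightedHomogeneous] at hf hg ⊢
  refine ⟨hf.1.mul hg.1, fun s i h => ?_⟩
  rw [T4.rowOp_mul, hf.2 s i h, hg.2 s i h, mul_zero, zero_mul, add_zero]

lemma HW_one [Fintype σ] : (1 : MvPolynomial (Fin n × σ) ℂ) ∈ HW n σ 0 := by
  rw [mem_HW_iff_isWeightedHomogeneous]
  refine ⟨isWeightedHomogeneous_one _ _, fun s i _ => ?_⟩
  rw [rowOp_apply]
  exact Finset.sum_eq_zero fun j _ => by rw [pderiv_one, mul_zero]

lemma HW_pow [Fintype σ] {lam : Fin n → ℕ} {f : MvPolynomial (Fin n × σ) ℂ}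
    (hf : f ∈ HW n σ lam) (k : ℕ) : f ^ k ∈ HW n σ (k • lam) := by
  induction k with
  | zero => rw [pow_zero, zero_smul]; exact HW_one
  | succ k ih => rw [pow_succ, succ_nsmul]; exact HW_mul ih hf

lemma HW_prod [Fintype σ] {ι : Type} (s : Finset ι) (lam : ι → Fin n → ℕ)
    (f : ι → MvPolynomial (Fin n × σ) ℂ) (hf : ∀ i ∈ s, f i ∈ HW n σ (lam i)) :
    ∏ i ∈ s, f i ∈ HW n σ (∑ i ∈ s, lam i) := by
  classical
  induction s using Finset.induction_on with
  | empty => rw [Finset.prod_empty, Finset.sum_empty]; exact HW_one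
  | insert a s ha ih =>
    rw [Finset.prod_insert ha, Finset.sum_insert ha]
    exact HW_mul (hf a (Finset.mem_insert_self _ _))
      (ih fun i hi => hf i (Finset.mem_insert_of_mem hi))

/-- Renaming of the columns. -/
noncomputable def ren (n : ℕ) (φ : σ → τ) :
    MvPolynomial (Fin n × σ) ℂ →ₐ[ℂ] MvPolynomial (Fin n × τ) ℂ :=
  rename (fun p : Fin n × σ => (p.1, φ p.2))

lemma ren_X (φ : σ → τ) (p : Fin n × σ) : ren n φ (X p) = X (p.1, φ p.2) := rename_X _ _

lemma rowOp_ren [Fintype σ] [Fintype τ] (φ : σ → τ) (s i : Fin n)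
    (f : MvPolynomial (Fin n × σ) ℂ) : rowOp s i (ren n φ f) = ren n φ (rowOp s i f) := by
  induction f using MvPolynomial.induction_on with
  | C r =>
    have h1 : ∀ {ρ : Type} [Fintype ρ] (c : ℂ),
        rowOp s i (C c : MvPolynomial (Fin n × ρ) ℂ) = 0 := by
      intro ρ _ c
      rw [rowOp_apply]
      exact Finset.sum_eq_zero fun j _ => by rw [pderiv_C, mul_zero]
    rw [ren, rename_C, h1, h1, map_zero]
  | add p q hp hq => rw [map_add, map_add, map_add, map_add, hp, hq]
  | mul_X p k hp =>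
    rw [map_mul, T4.rowOp_mul, T4.rowOp_mul, hp, map_add, map_mul, map_mul, ren_X, T4.rowOp_X,
      T4.rowOp_X]
    split_ifs with h
    · rw [ren_X]
    · rw [map_zero]

lemma ren_inj {φ : σ → τ} (hφ : Function.Injective φ) : Function.Injective (ren n φ) := by
  apply rename_injective
  rintro ⟨a, b⟩ ⟨c, d⟩ h
  have h1 := congrArg Prod.fst h
  have h2 := congrArg Prod.snd h
  simp only at h1 h2
  rw [h1, hφ h2]

lemma ren_row [Fintype σ] [Fintype τ] {φ : σ → τ} {lam : Fin n → ℕ}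
    {f : MvPolynomial (Fin n × σ) ℂ} (hf : f ∈ HW n σ lam) : ren n φ f ∈ HW n τ lam := by
  classical
  rw [mem_HW_iff_isWeightedHomogeneous] at hf ⊢
  refine ⟨fun v hv => ?_, fun s i h => by rw [rowOp_ren, hf.2 s i h, map_zero]⟩
  obtain ⟨u, hu, hu'⟩ := coeff_rename_ne_zero _ _ _ hv
  rw [← hu, ← hf.1 hu', Finsupp.weight_apply, Finsupp.weight_apply,
    Finsupp.sum_mapDomain_index (h := fun p c => c • rowW n τ p) (fun _ => zero_smul _ _)
      (fun _ _ _ => add_smul _ _ _)]
  rfl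

/-- The column degrees of the monomials of `f` are `d`. -/
def Col (n : ℕ) (σ : Type) (f : MvPolynomial (Fin n × σ) ℂ) (d : σ → ℕ) : Prop :=
  ∀ v, coeff v f ≠ 0 → ∀ j, ∑ i, v (i, j) = d j

lemma Col.mul {f g : MvPolynomial (Fin n × σ) ℂ} {d e : σ → ℕ} (hf : Col n σ f d)
    (hg : Col n σ g e) : Col n σ (f * g) (d + e) := by
  classical
  intro v hv j
  rw [coeff_mul] at hv
  obtain ⟨p, hp, hp'⟩ := Finset.exists_ne_zero_of_sum_ne_zero hv
  rw [← Finset.HasAntidiagonal.mem_antidiagonal.1 hp, Pi.add_apply, ← hf _ (left_ne_zero_of_mul hp') j,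
    ← hg _ (right_ne_zero_of_mul hp') j, ← Finset.sum_add_distrib]
  rfl

lemma Col.one : Col n σ 1 0 := by
  classical
  intro v hv j
  rw [coeff_one] at hv
  have h : v = 0 := by
    by_contra h
    exact hv (if_neg (fun h' => h h'.symm))
  subst h
  exact Finset.sum_eq_zero fun i _ => rfl

lemma Col.pow {f : MvPolynomial (Fin n × σ) ℂ} {d : σ → ℕ} (hf : Col n σ f d) (k : ℕ) :
    Col n σ (f ^ k) (k • d) := by
  induction k with
  | zero => rw [pow_zero, zero_smul]; exact Col.one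
  | succ k ih => rw [pow_succ, succ_nsmul]; exact ih.mul hf

lemma Col.prod {ι : Type} (s : Finset ι) {d : ι → σ → ℕ}
    {f : ι → MvPolynomial (Fin n × σ) ℂ} (hf : ∀ i ∈ s, Col n σ (f i) (d i)) :
    Col n σ (∏ i ∈ s, f i) (∑ i ∈ s, d i) := by
  classical
  induction s using Finset.induction_on with
  | empty => rw [Finset.prod_empty, Finset.sum_empty]; exact Col.one
  | insert a s ha ih =>
    rw [Finset.prod_insert ha, Finset.sum_insert ha]
    exact (hf a (Finset.mem_insert_self _ _)).mul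
      (ih fun i hi => hf i (Finset.mem_insert_of_mem hi))

lemma Col.sum {ι : Type} (s : Finset ι) {d : σ → ℕ} {f : ι → MvPolynomial (Fin n × σ) ℂ}
    (hf : ∀ i ∈ s, Col n σ (f i) d) : Col n σ (∑ i ∈ s, f i) d := by
  intro v hv
  rw [coeff_sum] at hv
  obtain ⟨i, hi, hi'⟩ := Finset.exists_ne_zero_of_sum_ne_zero hv
  exact hf i hi v hi'

lemma Col.X [DecidableEq σ] (p : Fin n × σ) : Col n σ (X p) (Pi.single p.2 1) := by
  classical
  intro v hv j
  rw [coeff_X] at hv
  have h : v = Finsupp.single p 1 := by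
    by_contra h
    exact hv (if_neg (fun h' => h h'.symm))
  subst h
  by_cases hj : j = p.2
  · subst hj
    rw [Pi.single_eq_same, Finset.sum_eq_single p.1]
    · exact Finsupp.single_eq_same
    · intro i _ hi
      rw [Finsupp.single_eq_of_ne]
      intro h'
      exact hi (congrArg Prod.fst h')
    · intro h'
      exact absurd (Finset.mem_univ _) h'
  · rw [Pi.single_eq_of_ne hj]
    refine Finset.sum_eq_zero fun i _ => ?_
    rw [Finsupp.single_eq_of_ne]
    intro h'
    exact hj (congrArg Prod.snd h')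

end Vale.Agent.P181.SZR5
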